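import Vale.Agent.ZAbs.Final
import Vale.Agent.ZAbs.Glue.Restate

/-! P095: every action of a countable amenable group on a separable Jiang-Su stable C*-algebra is
equivariantly Jiang-Su stable. -/

namespace Vale.Agent.Results.P095.EquivariantZStability

open Filter Topology
open scoped BoundedContinuousFunction ComplexOrder
open Vale.Agent.ZAbs

universe u v

theorem result :
    Nonempty JSSys ∧
    (∀ (S : JSSys) (A : Type u) [NonUnitalCStarAlgebra A] [PartialOrder A] [StarOrderedRing A],
      HasTensorLim S A) ∧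
    ∀ (S : JSSys) (G : Type v) [Group G] [Countable G],
      (∀ E : Finset G, ∀ ε : ℝ, 0 < ε → ∃ P : Finset G, P.Nonempty ∧
        ∀ h ∈ E, (Set.ncard (((h * ·) '' (P : Set G)) \ (P : Set G)) : ℝ) ≤ ε * P.card) →
      ∀ (A : Type u) [NonUnitalCStarAlgebra A] [PartialOrder A] [StarOrderedRing A]
        [TopologicalSpace.SeparableSpace A] (α : G → Iso A A), IsAction α →
        (IsJSStable S A → IsEquivariantlyJSStable S α) ∧
        ∀ ω : Ultrafilter ℕ, (ω : Filter ℕ) ≤ cofinite →
          IsEmpty (Vale.Agent.P095.General.CentralCharA ω A) → IsEquivariantlyJSStable S α :=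
  ⟨system_exists, hasTensorLim, fun S G _ _ hG A _ _ _ _ α hα =>
    ⟨fun hZ => isEquivariantlyJSStable_of (main_ok S G hG A α hα (hyperfilter ℕ)
      hyperfilter_le_cofinite
      (noChar_ok S A (hyperfilter ℕ) hyperfilter_le_cofinite (isJSStable_iff.1 hZ))),
    fun ω hω he => isEquivariantlyJSStable_of (main_ok S G hG A α hα ω hω he)⟩⟩

end Vale.Agent.Results.P095.EquivariantZStability
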